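import Mathlib

/-! Normalized volumes of klt germs: real valuations, log discrepancy, volume. -/

open scoped ENNReal
open Filter

noncomputable section

namespace Vale.Agent.P282

/-- A real valuation of the field `K`, trivial on `ℂ` (the value at `0` plays no role). -/
structure RVal (K : Type) [Field K] [Algebra ℂ K] where
  v : K → ℝ
  mul : ∀ a b, a ≠ 0 → b ≠ 0 → v (a * b) = v a + v b
  add : ∀ a b, a ≠ 0 → b ≠ 0 → a + b ≠ 0 → min (v a) (v b) ≤ v (a + b)
  const : ∀ c : ℂ, c ≠ 0 → v (algebraMap ℂ K c) = 0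

namespace RVal

variable {K : Type} [Field K] [Algebra ℂ K] (w : RVal K)

/-- `v(a) ≥ t`, with `v(0) = +∞`. -/
def Ge (a : K) (t : ℝ) : Prop := a = 0 ∨ t ≤ w.v a

/-- `w` is a divisorial valuation of a function field of dimension `n`: the value group is
infinite cyclic and the residue field has `n - 1` algebraically independent elements. -/
def Divisorial (n : ℕ) : Prop :=
  (∃ c : ℝ, 0 < c ∧ (∃ a, a ≠ 0 ∧ w.v a = c) ∧ ∀ a, a ≠ 0 → ∃ k : ℤ, w.v a = k * c) ∧
    ∃ g : Fin (n - 1) → K, ∀ P : MvPolynomial (Fin (n - 1)) ℂ, P ≠ 0 →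
      MvPolynomial.aeval g P ≠ 0 ∧ w.v (MvPolynomial.aeval g P) = 0

variable (R : Type) [CommRing R] [Algebra R K]

/-- `w` has a centre on `Spec R`. -/
def OnSpec : Prop := ∀ r : R, w.Ge (algebraMap R K r) 0

variable {R}

/-- The centre of `w` is the point `m`. -/
def CenteredAt (m : Ideal R) : Prop :=
  w.OnSpec R ∧ ∀ r : R, algebraMap R K r ≠ 0 → (0 < w.v (algebraMap R K r) ↔ r ∈ m)

end RVal

/-- `a` lies in the local ring of `R` at the prime `p`. -/
def InLoc {R K : Type} [CommRing R] [Field K] [Algebra R K] (p : Ideal R) (a : K) : Prop :=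
  ∃ r s : R, s ∉ p ∧ a * algebraMap R K s = algebraMap R K r

/-- A rational `m`-fold `n`-form `ω = h (b₁ ∧ ⋯ ∧ bₙ)^m` on a function field of dimension `n`. -/
structure PForm (K : Type) [Field K] [Algebra ℂ K] (n : ℕ) where
  m : ℕ
  m_pos : 0 < m
  b : Module.Basis (Fin n) K (KaehlerDifferential ℂ K)
  h : K
  h_ne : h ≠ 0

namespace PForm

variable {K : Type} [Field K] [Algebra ℂ K] {n : ℕ} (ω : PForm K n)

/-- `df₁ ∧ ⋯ ∧ dfₙ = jac f • (b₁ ∧ ⋯ ∧ bₙ)`. -/
def jac (f : Fin n → K) : K := ω.b.det fun i => KaehlerDifferential.D ℂ K (f i)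

/-- `(df₁ ∧ ⋯ ∧ dfₙ)^m = rho f • ω`. -/
def rho (f : Fin n → K) : K := ω.jac f ^ ω.m / ω.h

/-- `(1 / m) v (ω / (df₁ / f₁ ∧ ⋯ ∧ dfₙ / fₙ)^m)`. -/
def wt (w : RVal K) (f : Fin n → K) : ℝ := ∑ i, w.v (f i) - w.v (ω.rho f) / ω.m

/-- The log discrepancy: the supremum of `wt` over all logarithmic forms. -/
def A (w : RVal K) : EReal :=
  ⨆ f : {f : Fin n → K // (∀ i, f i ≠ 0) ∧ ω.jac f ≠ 0}, (ω.wt w f.1 : EReal)

variable (R : Type) [CommRing R] [Algebra R K]

/-- `ω` generates the `m`-th power of the sheaf of regular `n`-forms at the generic point of every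
prime divisor of `Spec R`: its divisor is zero, so that `m K` is Cartier with generator `ω`. -/
def Generates : Prop :=
  ∀ p : Ideal R, p.IsPrime → p.height = 1 →
    (∀ f : Fin n → R, InLoc p (ω.rho fun i => algebraMap R K (f i))) ∧
      ∃ f : Fin n → R, (ω.rho fun i => algebraMap R K (f i)) ≠ 0 ∧
        InLoc p (ω.rho fun i => algebraMap R K (f i))⁻¹

/-- All divisors over `Spec R` have positive log discrepancy. -/
def Klt : Prop := ∀ w : RVal K, w.Divisorial n → w.OnSpec R → 0 < ω.A w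

end PForm

section Vol

variable {R K : Type} [CommRing R] [IsDomain R] [Field K] [Algebra ℂ K] [Algebra R K]
  [IsFractionRing R K] (m : Ideal R) [m.IsPrime]

/-- The inclusion of the local ring in the function field. -/
def toK : Localization.AtPrime m →+* K :=
  IsLocalization.lift (M := m.primeCompl) (g := algebraMap R K) fun y =>
    IsLocalization.map_units K ⟨y.1, m.primeCompl_le_nonZeroDivisors y.2⟩

/-- The ideal generated by the elements of the local ring of value at least `t` (for a valuation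
with centre `m` these elements form an ideal). -/
def valIdeal (w : RVal K) (t : ℝ) : Ideal (Localization.AtPrime m) :=
  Ideal.span {f | w.Ge (toK m f) t}

/-- The volume of a valuation. -/
def vol (n : ℕ) (w : RVal K) : ℝ≥0∞ :=
  limsup (fun t : ℝ => (n.factorial : ℝ≥0∞) *
    (Module.length (Localization.AtPrime m) (Localization.AtPrime m ⧸ valIdeal m w t) : ℕ∞) /
      ENNReal.ofReal (t ^ n)) atTop

open Classical in
/-- The normalized volume of the germ at `m`. -/
def nvol {n : ℕ} (ω : PForm K n) : ℝ≥0∞ :=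
  ⨅ w : {w : RVal K // w.CenteredAt m},
    if ω.A w.1 = ⊤ then ⊤ else ENNReal.ofReal ((ω.A w.1).toReal ^ n) * vol m n w.1

end Vol

/-- The germ of `Spec R` at `m` is an ordinary double point: its completed local ring is
`ℂ[[z₀, …, zₙ]] / (z₀² + ⋯ + zₙ²)`. -/
def IsODP {R : Type} [CommRing R] [Algebra ℂ R] (n : ℕ) (m : Ideal R) [m.IsPrime] : Prop :=
  Nonempty (AdicCompletion (IsLocalRing.maximalIdeal (Localization.AtPrime m))
      (Localization.AtPrime m) ≃ₐ[ℂ]
    MvPowerSeries (Fin (n + 1)) ℂ ⧸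
      Ideal.span {∑ i, (MvPowerSeries.X i : MvPowerSeries (Fin (n + 1)) ℂ) ^ 2})

end Vale.Agent.P282
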